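import Vale.Agent.P200.Q.Final
import Vale.Agent.P200.L.LPP3
import Vale.Agent.P200.L.Fast
import Vale.Agent.P200.M.Final

/-!
Lex-plus-powers for at most three forms, for quadrics, and for these followed by forms of fast
growing degrees.
-/

namespace Vale.Agent.P200.Fin2

open MvPolynomial

variable {K : Type*} [Field K] {n c : ℕ}

/-- the growth condition gives the hypothesis `Q.Case` with `T` everything -/
theorem case_of_grow (a : Fin c → ℕ) (ha : Monotone a) (h2 : ∀ i, 2 ≤ a i)
    (hU : ∀ i : Fin c, 3 ≤ i.1 → a i = 2 ∨ ∑ j ∈ Finset.univ.filter (fun j => j < i), (a j - 1) < a i)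
    (f : Fin c → MvPolynomial (Fin n) K) : Q.Case a f := by
  refine ⟨Finset.univ, fun i _ h3 => ?_, fun i hi => absurd (Finset.mem_univ i) hi⟩
  have h1 : (Finset.univ.filter fun j : Fin c => j < i).card = i.1 := by
    have : (Finset.univ.filter fun j : Fin c => j < i) = Finset.Iio i := by
      ext j; simp
    rw [this, Fin.card_Iio]
  rw [h1] at h3
  rcases hU i h3 with h | h
  · exact Or.inr fun j _ hji => le_antisymm ((ha hji).trans h.le) (h2 j)
  · exact Or.inl h

/-- the growth condition for a prefix -/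
theorem grow_prefix {c' : ℕ} (hc' : c' ≤ c) (a : Fin c → ℕ)
    (hU : ∀ i : Fin c, 3 ≤ i.1 → a i = 2 ∨ ∑ j ∈ Finset.univ.filter (fun j => j < i), (a j - 1) < a i) :
    ∀ i : Fin c', 3 ≤ i.1 → a (Fin.castLE hc' i) = 2 ∨
      ∑ j ∈ Finset.univ.filter (fun j => j < i), (a (Fin.castLE hc' j) - 1) <
        a (Fin.castLE hc' i) := by
  intro i hi
  rcases hU (Fin.castLE hc' i) hi with h | h
  · exact Or.inl h
  · right
    have key : (Finset.univ.filter fun j => j < i).map (Fin.castLEEmb hc') =
        Finset.univ.filter fun j => j < Fin.castLE hc' i := by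
      ext j
      simp only [Finset.mem_map, Finset.mem_filter, Finset.mem_univ, true_and]
      constructor
      · rintro ⟨k, hki, rfl⟩
        exact hki
      · intro hji
        have hj' : j.1 < c' := lt_trans hji i.2
        exact ⟨⟨j.1, hj'⟩, hji, rfl⟩
    rw [← key, Finset.sum_map] at h
    exact h

/-- **Cycle inequalities** under the growth condition. -/
theorem zle_of_grow (h : c ≤ n) (a : Fin c → ℕ) (ha : Monotone a) (h2 : ∀ i, 2 ≤ a i)
    (hU : ∀ i : Fin c, 3 ≤ i.1 → a i = 2 ∨ ∑ j ∈ Finset.univ.filter (fun j => j < i), (a j - 1) < a i)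
    (f : Fin c → MvPolynomial (Fin n) K) (hf : ∀ i, (f i).IsHomogeneous (a i))
    (hreg : IsRegularSeq f) (p : ℕ) : L.ZLE K h a p f := by
  have hpos : ∀ i, 1 ≤ a i := fun i => le_trans one_le_two (h2 i)
  have hinf : Infinite (AlgebraicClosure K) := IsAlgClosed.instInfinite
  refine L.zle_of_baseChange (L := AlgebraicClosure K) h a p f hf ?_
  -- the length of the base sequence
  obtain ⟨m, hmc, hm, hgrow⟩ : ∃ m, ∃ _ : m ≤ c, (m ≤ 3 ∨ ∀ i : Fin c, i.1 < m → a i = 2) ∧
      ∀ i : Fin c, m ≤ i.1 → ∑ j ∈ Finset.univ.filter (fun j => j < i), (a j - 1) < a i := by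
    classical
    by_cases hq : ∀ i : Fin c, 3 ≤ i.1 →
        ∑ j ∈ Finset.univ.filter (fun j => j < i), (a j - 1) < a i
    · exact ⟨min 3 c, min_le_right _ _, Or.inl (min_le_left _ _), fun i hi => by
        have := i.2
        exact hq i (by omega)⟩
    · push Not at hq
      obtain ⟨i0, hi0, hi0'⟩ := hq
      have hi2 : a i0 = 2 := (hU i0 hi0).resolve_right (not_lt.2 hi0')
      set S : Finset (Fin c) := Finset.univ.filter fun i => a i = 2 with hS
      have hne : S.Nonempty := ⟨i0, by simp [hS, hi2]⟩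
      set k := S.max' hne with hk
      have hk2 : a k = 2 := (Finset.mem_filter.1 (S.max'_mem hne)).2
      refine ⟨k.1 + 1, k.2, Or.inr fun i hi => ?_, fun i hi => ?_⟩
      · have hik : i ≤ k := by
          rw [Fin.le_def]
          omega
        exact le_antisymm ((ha hik).trans hk2.le) (h2 i)
      · have h0k : i0 ≤ k := S.le_max' i0 (by simp [hS, hi2])
        rw [Fin.le_def] at h0k
        refine (hU i (by omega)).resolve_left fun h4 => ?_
        have h5 : i ≤ k := S.le_max' i (by simp [hS, h4])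
        rw [Fin.le_def] at h5
        omega
  refine L.zle_fast hmc a ha h2 hgrow ?_ ?_ n h _ (fun i => (hf i).map _)
    (G.isRegSeq_baseChange f a hf hreg) p
  · intro c' hc' _ n h f hf hreg
    exact Q.egh_case h _ (fun _ _ hij => ha (by exact hij)) (fun _ => h2 _) f hf hreg
      (case_of_grow _ (fun _ _ hij => ha (by exact hij)) (fun _ => h2 _)
        (grow_prefix hc' a hU) f)
  · intro g hg hgreg p
    rcases hm with hm | hm
    · exact L.zle_base_three hm _ (fun _ _ hij => ha (by exact hij)) (fun _ => h2 _) g hg hgreg p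
    · have h6 : (fun i : Fin m => a (Fin.castLE hmc i)) = fun _ => 2 := by
        funext i
        exact hm _ i.2
      have hg' : ∀ i, (g i).IsHomogeneous 2 := fun i => by
        have := hg i
        rwa [hm _ i.2] at this
      rw [h6]
      exact M.quad_zle' le_rfl g hg' hgreg p

theorem egh_and_lpp (K : Type*) [Field K] {n c : ℕ} (h : c ≤ n) (a : Fin c → ℕ)
    (ha : Monotone a) (h2 : ∀ i, 2 ≤ a i) (f : Fin c → MvPolynomial (Fin n) K)
    (hf : ∀ i, (f i).IsHomogeneous (a i)) (hreg : IsRegularSeq f)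
    (hcase : ∃ T : Finset (Fin c),
      (∀ i ∈ T, 3 ≤ (T.filter fun j => j < i).card →
        a i = 2 ∨ ∑ j ∈ T.filter fun j => j < i, (a j - 1) < a i) ∧
      ∀ i, i ∉ T → ∃ l : Fin (a i) → MvPolynomial (Fin n) (AlgebraicClosure K),
        (∀ k, (l k).IsHomogeneous 1) ∧
          MvPolynomial.map (algebraMap K (AlgebraicClosure K)) (f i) = ∏ k, l k)
    (I : Ideal (MvPolynomial (Fin n) K)) (hI : ∀ g ∈ I, ∀ d, homogeneousComponent d g ∈ I)
    (hfI : ∀ i, f i ∈ I) :
    ∃ J : Ideal (MvPolynomial (Fin n) K),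
      J.restrictScalars K = lexPlusPowers h a I ∧
      (∀ j, bettiNumber I 1 j ≤ bettiNumber J 1 j) ∧
      (∀ j, bettiNumber I n j ≤ bettiNumber J n j) ∧
      ((∀ i : Fin c, 3 ≤ i.1 →
        a i = 2 ∨ ∑ j ∈ Finset.univ.filter (fun j => j < i), (a j - 1) < a i) →
        ∀ p j, bettiNumber I p j ≤ bettiNumber J p j) := by
  obtain ⟨T, hT, hs⟩ := hcase
  have hcase' : Q.Case a f := ⟨T, fun i hi h3 => by
    rcases hT i hi h3 with h | h
    · exact Or.inr fun j _ hji => le_antisymm ((ha hji).trans h.le) (h2 j)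
    · exact Or.inl h, hs⟩
  obtain ⟨J, hJ, h1, hn, -⟩ := Q.egh_and_lpp h a ha h2 f hf hreg hcase' I hI hfI
  refine ⟨J, hJ, h1, hn, fun hU p j => ?_⟩
  rw [B.bettiNumber_eq, B.bettiNumber_eq]
  exact L.betti_le_of_zle h a (fun i => le_trans one_le_two (h2 i)) f hf hreg p
    (zle_of_grow h a ha h2 hU f hf hreg p) (zle_of_grow h a ha h2 hU f hf hreg (p + 1))
    I hI hfI J hJ j

end Vale.Agent.P200.Fin2
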