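import Vale.Agent.P200.Fin.Main2
import Vale.Agent.P200.Q.Small4
import Vale.Agent.P200.V.Main

/-!
The merged statement: Eisenbud-Green-Harris and lex-plus-powers for many types, and what is known
for every regular sequence.
-/

namespace Vale.Agent.P200.Fin3

open MvPolynomial Module

variable {K : Type*} [Field K] {n c : ℕ}

theorem caseS_of (a : Fin c → ℕ) (ha : Monotone a) (h2 : ∀ i, 2 ≤ a i)
    (f : Fin c → MvPolynomial (Fin n) K)
    (hcase : ∃ T : Finset (Fin c),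
      (∀ i ∈ T, 3 ≤ (T.filter (· < i)).card →
        a i = 2 ∨ ∑ j ∈ T.filter (· < i), (a j - 1) < a i ∨
        (T.filter (· < i)).card = 3 ∧ 2 ≤ (T.filter fun j => j < i ∧ a j = 2).card ∨
        (T.filter (· < i)).card = 4 ∧ ∀ j ∈ T, j < i → a j = 2) ∧
      ∀ i, i ∉ T → ∃ l : Fin (a i) → MvPolynomial (Fin n) (AlgebraicClosure K),
        (∀ k, (l k).IsHomogeneous 1) ∧
          MvPolynomial.map (algebraMap K (AlgebraicClosure K)) (f i) = ∏ k, l k) :
    Q.CaseS a f := by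
  obtain ⟨T, hT, hs⟩ := hcase
  refine ⟨T, fun i hi h3 => ?_, hs⟩
  rcases hT i hi h3 with h | h | h | h
  · exact Or.inr (Or.inl fun j _ hji => le_antisymm ((ha hji).trans h.le) (h2 j))
  · exact Or.inl h
  · exact Or.inr (Or.inr (Or.inl h))
  · exact Or.inr (Or.inr (Or.inr h))

theorem egh_and_lpp (h : c ≤ n) (a : Fin c → ℕ)
    (ha : Monotone a) (h2 : ∀ i, 2 ≤ a i) (f : Fin c → MvPolynomial (Fin n) K)
    (hf : ∀ i, (f i).IsHomogeneous (a i)) (hreg : IsRegularSeq f)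
    (I : Ideal (MvPolynomial (Fin n) K)) (hI : ∀ g ∈ I, ∀ d, homogeneousComponent d g ∈ I)
    (hfI : ∀ i, f i ∈ I) :
    ((∃ T : Finset (Fin c),
      (∀ i ∈ T, 3 ≤ (T.filter (· < i)).card →
        a i = 2 ∨ ∑ j ∈ T.filter (· < i), (a j - 1) < a i ∨
        (T.filter (· < i)).card = 3 ∧ 2 ≤ (T.filter fun j => j < i ∧ a j = 2).card ∨
        (T.filter (· < i)).card = 4 ∧ ∀ j ∈ T, j < i → a j = 2) ∧
      ∀ i, i ∉ T → ∃ l : Fin (a i) → MvPolynomial (Fin n) (AlgebraicClosure K),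
        (∀ k, (l k).IsHomogeneous 1) ∧
          MvPolynomial.map (algebraMap K (AlgebraicClosure K)) (f i) = ∏ k, l k) →
      ∃ J : Ideal (MvPolynomial (Fin n) K),
        J.restrictScalars K = lexPlusPowers h a I ∧
        (∀ j, bettiNumber I 1 j ≤ bettiNumber J 1 j) ∧
        (∀ j, bettiNumber I n j ≤ bettiNumber J n j) ∧
        ((∀ i : Fin c, 3 ≤ i.1 → a i = 2 ∨ ∑ j ∈ Finset.univ.filter (· < i), (a j - 1) < a i) →
          ∀ p j, bettiNumber I p j ≤ bettiNumber J p j)) ∧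
    (∀ d, d ≤ 2 ∨ n = c ∧ ∑ i, (a i - 1) ≤ d + 3 →
      ∀ g ∈ lexPart h a I d, ∀ i, X i * g ∈ lexPart h a I (d + 1)) ∧
    ∃ s : ℕ, 0 < s ∧ ∃ E : Fin s → Set (Fin n →₀ ℕ), ∃ M : Fin s → Ideal (MvPolynomial (Fin n) K),
      (∀ k, M k = Ideal.span ((fun m => monomial m (1 : K)) '' E k)) ∧
      (∀ k i, X (Fin.castLE h i) ^ a i ∈ M k) ∧
      (∀ d, s * finrank K (degPart I d) = ∑ k, finrank K (degPart (M k) d)) ∧
      ∀ p j, s * bettiNumber I p j ≤ ∑ k, bettiNumber (M k) p j := by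
  refine ⟨fun hcase => ?_, fun d hd g hg i => ?_, ?_⟩
  · obtain ⟨J, hJ, h1, hn, -⟩ :=
      Q.egh_and_lpp_small h a ha h2 f hf hreg (caseS_of a ha h2 f hcase) I hI hfI
    refine ⟨J, hJ, h1, hn, fun hU p j => ?_⟩
    rw [B.bettiNumber_eq, B.bettiNumber_eq]
    exact L.betti_le_of_zle h a (fun i => le_trans one_le_two (h2 i)) f hf hreg p
      (Fin2.zle_of_grow h a ha h2 hU f hf hreg p)
      (Fin2.zle_of_grow h a ha h2 hU f hf hreg (p + 1)) I hI hfI J hJ j
  · rcases hd with hd | ⟨hn, hd⟩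
    · exact Q.lexPart_growth_le_two h a ha h2 f hf hreg I hI hfI d hd g hg i
    · subst hn
      exact Q.lexPart_growth_top a ha h2 f hf hreg I hI hfI d hd g hg i
  · obtain ⟨N, hN, H⟩ := V.average h a (fun i => le_trans one_le_two (h2 i)) f hf hreg
    obtain ⟨E, hE, hp, hd, hb⟩ := H I hI hfI
    refine ⟨N, hN, E, fun k => V.monIdeal K (E k), fun k => rfl, fun k i => ?_, hd, fun p j => ?_⟩
    · rw [X_pow_eq_monomial]
      exact Ideal.subset_span ⟨_, hp k i, rfl⟩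
    · simp only [B.bettiNumber_eq]
      exact hb p j

end Vale.Agent.P200.Fin3
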