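import Vale.Agent.P200.Fin.Main3
import Vale.Agent.P200.Z.Raise
import Vale.Agent.P200.Y.Grow

/-!
The merged statement with the prime degrees.
-/

namespace Vale.Agent.P200.Fin4

open MvPolynomial Module

variable {K : Type*} [Field K] {n c : ℕ}

/-- the spaces `J_d` form an ideal; first and last Betti numbers -/
theorem egh_betti (h : c ≤ n) (a : Fin c → ℕ)
    (ha : Monotone a) (h2 : ∀ i, 2 ≤ a i) (f : Fin c → MvPolynomial (Fin n) K)
    (hf : ∀ i, (f i).IsHomogeneous (a i)) (hreg : IsRegularSeq f) (T : Finset (Fin c))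
    (hT : Z.AdmP K a T)
    (hsplit : ∀ i, i ∉ T →
      SplitsLinear (a i) (MvPolynomial.map (algebraMap K (AlgebraicClosure K)) (f i)))
    (I : Ideal (MvPolynomial (Fin n) K)) (hI : ∀ g ∈ I, ∀ d, homogeneousComponent d g ∈ I)
    (hfI : ∀ i, f i ∈ I) :
    ∃ J : Ideal (MvPolynomial (Fin n) K),
      J.restrictScalars K = lexPlusPowers h a I ∧
      (∀ j, bettiNumber I 1 j ≤ bettiNumber J 1 j) ∧
      (∀ j, bettiNumber I n j ≤ bettiNumber J n j) := by
  have hpos : ∀ i, 1 ≤ a i := fun i => le_trans one_le_two (h2 i)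
  have hE : ∀ (c' : ℕ) (h' : c' ≤ c), B.EGHfor (h'.trans h)
      (fun i : Fin c' => a (Fin.castLE h' i)) (fun i : Fin c' => f (Fin.castLE h' i)) := by
    intro c' h' I hI hfI
    exact Z.egh_final_p K (h'.trans h) _ (fun i j hij => ha (by exact hij)) (fun i => h2 _) _
      (fun i => hf _) (B.regular_castLE hreg h') _ (Z.admP_prefix K h' hT)
      (fun i hi => hsplit _ fun hi' => hi (by simpa using hi')) I hI hfI
  obtain ⟨J, hJ⟩ := Z.egh_final_p K h a ha h2 f hf hreg T hT hsplit I hI hfI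
  simp only [B.bettiNumber_eq]
  exact ⟨J, hJ, B.betti_one_le h a ha hpos f hf hreg hE I hI hfI J hJ,
    B.betti_top_le h a ha hpos f hf hreg (hE c le_rfl) I hI hfI J hJ⟩

theorem admP_of (a : Fin c → ℕ) (ha : Monotone a) (h2 : ∀ i, 2 ≤ a i) (T : Finset (Fin c))
    (hT : ∀ i ∈ T, 3 ≤ (T.filter (· < i)).card →
        a i = 2 ∨ ∑ j ∈ T.filter (· < i), (a j - 1) < a i ∨
        (T.filter (· < i)).card = 3 ∧ 2 ≤ (T.filter fun j => j < i ∧ a j = 2).card ∨
        (T.filter (· < i)).card = 4 ∧ (∀ j ∈ T, j < i → a j = 2) ∨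
        (a i).Prime ∧ ((a i).factorial : K) ≠ 0 ∧
          (∀ j ∈ T, j < i → 2 ≤ (T.filter (· < j)).card → a j = a i) ∨
        (T.filter (· < i)).card = 3 ∧ 1 ≤ (T.filter fun j => j < i ∧ a j = 2).card ∧
          2 ≤ (T.filter fun j => j < i ∧ a j ≤ 3).card ∧
          ∀ j ∈ T, j < i → (T.filter (· < j)).card = 2 →
            (a j).Prime ∧ ((a j).factorial : K) ≠ 0) : Z.AdmP K a T := by
  intro i hi h3
  rcases hT i hi h3 with h | h | h | h | h | h
  · exact Or.inl fun j _ hji => le_antisymm ((ha hji).trans h.le) (h2 j)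
  · exact Or.inr (Or.inl h)
  · exact Or.inr (Or.inr (Or.inl h))
  · exact Or.inr (Or.inr (Or.inr (Or.inl h)))
  · exact Or.inr (Or.inr (Or.inr (Or.inr (Or.inl h))))
  · exact Or.inr (Or.inr (Or.inr (Or.inr (Or.inr h))))

theorem egh_and_lpp (h : c ≤ n) (a : Fin c → ℕ)
    (ha : Monotone a) (h2 : ∀ i, 2 ≤ a i) (f : Fin c → MvPolynomial (Fin n) K)
    (hf : ∀ i, (f i).IsHomogeneous (a i)) (hreg : IsRegularSeq f)
    (I : Ideal (MvPolynomial (Fin n) K)) (hI : ∀ g ∈ I, ∀ d, homogeneousComponent d g ∈ I)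
    (hfI : ∀ i, f i ∈ I) :
    ((∃ T : Finset (Fin c),
      (∀ i ∈ T, 3 ≤ (T.filter (· < i)).card →
        a i = 2 ∨ ∑ j ∈ T.filter (· < i), (a j - 1) < a i ∨
        (T.filter (· < i)).card = 3 ∧ 2 ≤ (T.filter fun j => j < i ∧ a j = 2).card ∨
        (T.filter (· < i)).card = 4 ∧ (∀ j ∈ T, j < i → a j = 2) ∨
        (a i).Prime ∧ ((a i).factorial : K) ≠ 0 ∧
          (∀ j ∈ T, j < i → 2 ≤ (T.filter (· < j)).card → a j = a i) ∨
        (T.filter (· < i)).card = 3 ∧ 1 ≤ (T.filter fun j => j < i ∧ a j = 2).card ∧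
          2 ≤ (T.filter fun j => j < i ∧ a j ≤ 3).card ∧
          ∀ j ∈ T, j < i → (T.filter (· < j)).card = 2 →
            (a j).Prime ∧ ((a j).factorial : K) ≠ 0) ∧
      ∀ i, i ∉ T → ∃ l : Fin (a i) → MvPolynomial (Fin n) (AlgebraicClosure K),
        (∀ k, (l k).IsHomogeneous 1) ∧
          MvPolynomial.map (algebraMap K (AlgebraicClosure K)) (f i) = ∏ k, l k) →
      ∃ J : Ideal (MvPolynomial (Fin n) K),
        J.restrictScalars K = lexPlusPowers h a I ∧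
        (∀ j, bettiNumber I 1 j ≤ bettiNumber J 1 j) ∧
        (∀ j, bettiNumber I n j ≤ bettiNumber J n j) ∧
        ((∀ i : Fin c, 3 ≤ i.1 →
          a i = 2 ∨ ∑ j ∈ Finset.univ.filter (· < i), (a j - 1) < a i ∨
          (a i).Prime ∧ ((a i).factorial : K) ≠ 0 ∧ ∀ j, j ≤ i → 1 ≤ j.1 → a j = a i) →
          ∀ p j, bettiNumber I p j ≤ bettiNumber J p j)) ∧
    (∀ d e, e = d ∨ n = c ∧ d + e + 1 = ∑ i, (a i - 1) →
      e ≤ 2 ∨ (∀ i : Fin c, 3 ≤ i.1 → e + 1 < a i) ∨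
        e.Prime ∧ (e.factorial : K) ≠ 0 ∧ (∀ i : Fin c, 2 ≤ i.1 → e ≤ a i) →
      ∀ g ∈ lexPart h a I d, ∀ i, X i * g ∈ lexPart h a I (d + 1)) ∧
    (∀ p, p.Prime → (p.factorial : K) ≠ 0 → (∀ i, a i ≤ p) →
      ∃ J : Ideal (MvPolynomial (Fin n) K),
        J.restrictScalars K = lexPlusPowers h (fun i => if i.1 < 2 then a i else p) I) ∧
    ∃ s : ℕ, 0 < s ∧ ∃ E : Fin s → Set (Fin n →₀ ℕ), ∃ M : Fin s → Ideal (MvPolynomial (Fin n) K),
      (∀ k, M k = Ideal.span ((fun m => monomial m (1 : K)) '' E k)) ∧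
      (∀ k i, X (Fin.castLE h i) ^ a i ∈ M k) ∧
      (∀ d, s * finrank K (degPart I d) = ∑ k, finrank K (degPart (M k) d)) ∧
      ∀ p j, s * bettiNumber I p j ≤ ∑ k, bettiNumber (M k) p j := by
  refine ⟨fun hcase => ?_, fun d e hde he g hg i => ?_, fun p hp hpK hap => ?_,
    (Fin3.egh_and_lpp h a ha h2 f hf hreg I hI hfI).2.2⟩
  · obtain ⟨T, hT, hs⟩ := hcase
    obtain ⟨J, hJ, h1, hn⟩ :=
      egh_betti h a ha h2 f hf hreg T (admP_of a ha h2 T hT) hs I hI hfI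
    refine ⟨J, hJ, h1, hn, fun hU p j => ?_⟩
    rw [B.bettiNumber_eq, B.bettiNumber_eq]
    exact L.betti_le_of_zle h a (fun i => le_trans one_le_two (h2 i)) f hf hreg p
      (Y.zle_of_grow_p h a ha h2 hU f hf hreg p)
      (Y.zle_of_grow_p h a ha h2 hU f hf hreg (p + 1)) I hI hfI J hJ j
  · refine Z.lexPart_growth_p K h a ha h2 f hf hreg I hI hfI d ?_ g hg i
    rcases hde with rfl | ⟨hn, hde⟩
    · exact Or.inl he
    · refine Or.inr ⟨hn, Or.inr ?_⟩
      have : ∑ i, (a i - 1) - d - 1 = e := by omega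
      rw [this]
      exact he
  · exact Z.egh_raise K h a ha h2 f hf hreg I hI hfI p hp hpK hap

end Vale.Agent.P200.Fin4
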